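import Crest.Agent.X212.Alc32.B
import Crest.Agent.X212.Ncm43.Ix_Mg

/-!
# Row 212, NTR-ALTC (text of helper11, last step split by helper79): the leaf `Nr41.AltC`
-/

set_option autoImplicit false
set_option linter.unusedSectionVars false
noncomputable section
open scoped Manifold ContDiff Topology InnerProductSpace
open MeasureTheory Set Function Filter

namespace Crest.Agent.X212.Alc32
open An M Nd18 Mod61 Nk89 Cht98 Rf65 Pte3 Nt66 Hol14
open An.Job (Sol SolOn)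

section job
variable {Wi : Type} {X : Mf 4} {A κ lam : Type} [Fintype A] [Fintype κ] [Fintype lam]
  [DecidableEq lam] {M : Mark X A κ} {W : World M} {N : ML M lam} {Λ : Lns W N}
  {A' h : Type} [Fintype A'] [DecidableEq A'] [Fintype h] {r n : ℕ}
  {J : Job Wi Λ A' h r n} {c : M.Cl} {σ : Cel A'} {δ : ℝ}
  {p : Prt A A' h} {U : Type} [Fintype U] {b : Bp J c} {E : EC b p U δ} {y : J.Obc c}
  {x : Pnt E.o r} {ψ : E.K} {δ₀ : ℝ} {μ : Ed c → Option U} {P P' : Set (Reg A)} {q : Wi →₀ ℝ}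

theorem solOn (k : Sol σ q y) (e : W.un c p.P' = univ) (u : y.H = univ) : SolOn p σ q y :=
  ⟨k.cell, k.inf, k.sol.toAdm, fun _ hz => (hz (e.ge trivial)).elim, fun z _ => k.sol.D z,
    fun z _ => k.sol.C z, k.sol.S, fun i _ => k.cut i (u.ge trivial), fun a b ha _ => k.lim a b ha,
    fun a ha b _ => k.crit a ha b, k.int.integrableOn⟩

/-- the kernel of a row that is a line -/
theorem ker_row (H : CS σ E) (S : SolOn p σ q y) (R : E.RepC y x ψ) (i : p.H)
    (L : Qab60.Line J c q (b.θ p U x.t) x.cfg i) (η) (k : E.row q x i η = 0) :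
    ∃ s t : ℝ, η = s • ψ i + t • JH E.o.m.J (E.o.m.pp (J.B c) (J.cut c i).x0) (ψ i) := by
  obtain ⟨u, ζ, e, f⟩ := R.e
  by_cases v0 : η = 0
  · exact ⟨0, 0, by simp [v0]⟩
  obtain ⟨z, e⟩ := L _ (‖η‖⁻¹ • η) (H.cut_sol S R.s e (f i)) ⟨norm_smul_inv_norm v0,
    (map_smul _ _ _).trans ((congrArg _ (sub_eq_zero.1 k)).trans (map_smul _ _ _).symm)⟩
  have e := e.trans (rH_csE (cp_pp (Λ.B_ok _ _) E.o.ok _) _ _)
  exact ⟨‖η‖ * (z : ℂ).re, ‖η‖ * (z : ℂ).im, by
    rw [mul_smul, mul_smul, ← smul_add]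
    exact (smul_inv_smul₀ (norm_ne_zero_iff.2 v0) η).symm.trans (congrArg _ e)⟩

end job

open G75 Ins26
variable {κ lam : Type} [Fintype κ] [Fintype lam] [DecidableEq lam] (Lm : LM κ lam)

/-- **LEAF ALT-C** -/
theorem altC : Nr41.All Lm Nr41.AltC := fun _ D _ _ _ _ J c _ hP =>
  ⟨1 / 16, by norm_num, fun δ hδ σ R b E q y x ψ ξ C f hf ix la e₀ h₀ t₀ s₀ => by
    have H := Ncm43.cs_res (P' := ∅) C.cs (C.θ ▸ C.cs.ovx x) C.ch hP hδ.2 Nr41.sub_in (empty_subset _)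
    have S := solOn (p := pW J c (shX _ {R}) σ R) C.sol (Nrx5.un_two C.one)
      ((C.sol.H_eq C.ti.1).trans C.unc)
    have k := ix ∅ (empty_subset _)
    simp only [Rf65.ix, finsum_mem_singleton, finsum_mem_empty, add_zero] at k
    have ln := fun (l : (pW J c (shX _ {R}) σ R).H) (hl : l.1 ∈ Nr41.Hi J R) =>
      ker_row C.cs S C.ch.rep l (C.θ.symm ▸ (C.ins.cut l hl).2)
    have A := altc C.cs Nr41.sub_in ((empty_subset _).trans Nr41.sub_in) H.F (H.sm.aff.tot H.F H.sm.sm q) hf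
      (un_one _ _ _) k la ln C.ia.ge h₀ t₀ s₀
    rcases A with A | ⟨α, η, τ, k1, k2, k3, k4, k5⟩
    · exact .inl A
    · exact .inr ⟨α, η, τ, k1, k2, k3, k4, k5⟩⟩

end Crest.Agent.X212.Alc32
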